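-- RD-BASE 5ecaf725fe6bfd5a0e160c392e3c23e36543f4f2
/-
Seat helper367 (P028, full BM): lemma (H) with phases of constant FRACTION (freezes of `q` are
allowed between the two starts of alignment).
-/
import Vale.Agent.P028.RD.R367.LemH
import Vale.Agent.P028.RD.H530.Sep

namespace Vale.P028.SK

open Finset CF RN

variable {g : Cfg}

theorem Nwf_iff {i q : ℕ} : Nwf g i q ↔ Nw g i q := Iff.rfl

/-- without newness the fraction is constant -/
theorem fr_const {i j q : ℕ} {F : ℚ} {b : Bool} (hij : i ≤ j)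
    (h : ∀ t, i < t → t ≤ j → ¬ Nwf g t q) (hs : st g i q = some (F, b)) :
    ∃ c, st g j q = some (F, c) := by
  induction j, hij using Nat.le_induction with
  | base => exact ⟨b, hs⟩
  | succ j hj ih =>
    obtain ⟨c, hc⟩ := ih fun t ht ht' => h t ht (by omega)
    by_cases hch : ChS g (j + 1) q
    · rcases PA.ChS.cases _ _ hch with ⟨F', h1, h2, h3⟩ | ⟨F₁, F', h1, h2, -⟩
      · exact absurd ⟨by omega, F', false, h1, h3⟩ (h (j + 1) (by omega) le_rfl)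
      · rw [Nat.add_sub_cancel] at h1
        have hc' : PA.st g.K.P (dat g) j q = some (F, c) := hc
        rw [hc', Option.some.injEq, Prod.mk.injEq] at h1
        obtain ⟨rfl, -⟩ := h1
        exact ⟨true, h2⟩
    · have h1 : st g (j + 1) q = st g j q := by
        by_contra hne
        refine hch ⟨by omega, ?_⟩
        rw [Nat.add_sub_cancel]
        exact hne
      exact ⟨c, by rw [h1, hc]⟩

/-- **Lemma (H), phases of constant fraction.** `i < i'`, the pair `(q, r)` starts its alignment at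
`i`, the pair `(q, r')` at `i'` (same futures), `r'` is new at `i'`, the fraction of `q` does not
change in `(i, i']` (`q` may freeze). Then the state of `r` does not change in `(i, i']` (it does
not even freeze), unless the complexity of the fraction of `q` has fallen below its fourth
root between a stage of change of `r` and `i'`. -/
theorem lemH_n (hJ : JsOK g.K g.Js) (hX : g.Js ≤ g.X) (hV : g.V ⊆ Icc 1 (N g))
    (hc0 : g.K.P.c0 ≤ 1 / 24) (hρ0 : (2 : ℝ) ^ 26 ≤ g.K.P.ρ0 ^ (-g.K.P.c0)) {i i' q r r' : ℕ}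
    {n n' : ℤ} (hii : i < i') (hq : q ∈ g.V) (hr : r ∈ g.V) (hr' : r' ∈ g.V)
    (hn : n ∈ Sh g q r) (hn' : n' ∈ Sh g q r') (h : TAs g i q r n) (h' : TAs g i' q r' n')
    (hnew : Nwf g i' r') (hch : ∀ t, i < t → t ≤ i' → ¬ Nwf g t q) :
    (∀ t, i < t → t ≤ i' → ¬ Chg g t r) ∨ ∃ t, i < t ∧ t ≤ i' ∧ Fell g t i' q := by
  by_contra hcon
  push Not at hcon
  obtain ⟨⟨t₀, ht1, ht2, ht3⟩, hno⟩ := hcon
  have hX1 : 1 ≤ g.X := by linarith [hJ.1]
  have hz : ∀ j, zs g ≤ z g j := fun j => zs_le_z hJ hX j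
  -- the first change
  classical
  have hex : ∃ t, i < t ∧ t ≤ i' ∧ Chg g t r := ⟨t₀, ht1, ht2, ht3⟩
  set t := Nat.find hex with ht
  obtain ⟨hit, hti, hct⟩ := Nat.find_spec hex
  have hmin : ∀ s, i < s → s ≤ t - 1 → ¬ Chg g s r := by
    intro s hs hs' hcs
    exact Nat.find_min hex (by omega : s < Nat.find hex) ⟨hs, by omega, hcs⟩
  obtain ⟨F, b, G, b', h1, h2, h3⟩ := h.sal hJ hX hV hq hr hn
  obtain ⟨F₁, b₁, G₁, b₁', k1, k2, k3⟩ := h'.sal hJ hX hV hq hr' hn'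
  have hqc : ∀ s, i ≤ s → s ≤ i' → ∃ c, st g s q = some (F, c) := fun s hs hs' =>
    fr_const hs (fun u hu hu' => hch u hu (by omega)) h1
  have hF : F₁ = F := by
    obtain ⟨c, hc⟩ := hqc i' hii.le le_rfl
    rw [k1, Option.some.injEq, Prod.mk.injEq] at hc
    exact hc.1
  subst hF
  have hrs : st g (t - 1) r = some (G, b') := by
    rw [st_const (by omega : i ≤ t - 1) hmin, h2]
  have hw := wants_of_chg hrs hct
  -- the complexity of `r` at the stage `t`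
  have hκ1 : g.K.P.ρ0 ^ (-g.K.P.c0) < CF.KK g t r G := PA.wants_large hrs hw
  have hκ2 : 1 ≤ 2 * (CF.KK g t r G) ^ 3 * PA.rho (dat g) t r := PA.wants_rho hrs hw
  have hκq := h3.KK_le hX1 hV (hz t) hit.le hq hr
  have hρt := h3.rho_eq hX1 hV (hz t) hit.le hq hr
  replace hκ2 := wants_transfer (PA.Kc_pos _ _ _ _).le hκ2 hρt.2
  -- the stage `i'`
  have hcand : PA.IsCand g.K.P (dat g) i' r' G₁ := by
    obtain ⟨m1, F₂, b₂, m2, m3⟩ := hnew
    rw [k2, Option.some.injEq, Prod.mk.injEq] at m2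
    obtain ⟨rfl, rfl⟩ := m2
    exact PA.cand_of_new _ _ m1 k2 m3
  have hρi := k3.rho_eq hX1 hV (hz i') le_rfl hq hr'
  have hdeq := k3.den_eq (hz i') le_rfl hq hr'
  have hq1 := (mem_Icc.1 (hV hq)).1
  have hr1 := (mem_Icc.1 (hV hr')).1
  have hKi : CF.KK g i' q F₁ ≤ 2 * CF.KK g i' r' G₁ + 4 :=
    k3.KK_ge hX1 hV (hz i') le_rfl hq hr'
  have hKc : CF.KK g i' r' G₁ ≤ (PA.rho (dat g) i' r') ^ (-g.K.P.c0) := hcand.2
  have hρpos : 0 < PA.rho (dat g) t q := PA.rho_pos _ _ _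
  have hρle : PA.rho (dat g) t q ≤ PA.rho (dat g) i' q := PA.rho_mono' hti q
  have hρpow : (PA.rho (dat g) i' r') ^ (-g.K.P.c0) ≤ (PA.rho (dat g) t q / 2) ^ (-g.K.P.c0) :=
    cand_transfer g.K.P.c0_pos hρpos hρle hρi.1
  obtain ⟨f1, f2⟩ := fell_num g.K.P.c0_pos hc0 (hρ0.trans hκ1.le) hκq hρpos hκ2
    (by linarith : CF.KK g i' q F₁ ≤ 2 * (PA.rho (dat g) t q / 2) ^ (-g.K.P.c0) + 4)
  refine hno t hit hti ⟨hti, F₁, hqc (t - 1) (by omega) (by omega),
    hqc t hit.le hti, hqc i' hii.le le_rfl, f1, ?_, f2⟩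
  obtain ⟨G₀, G', w1, w2, w3, w4, w5⟩ := hw
  have hrs' : PA.st g.K.P (dat g) (t - 1) r = some (G, b') := hrs
  rw [hrs', Option.some.injEq, Prod.mk.injEq] at w1
  obtain ⟨rfl, -⟩ := w1
  refine w5.trans ?_
  refine Real.rpow_le_rpow ?_ hκq g.K.P.c4_pos.le
  exact (PA.one_le_KK _ _ _ _).trans' zero_le_one


/-- the form with newness positions only -/
theorem lemH_n' (hJ : JsOK g.K g.Js) (hX : g.Js ≤ g.X) (hV : g.V ⊆ Icc 1 (N g))
    (hc0 : g.K.P.c0 ≤ 1 / 24) (hρ0 : (2 : ℝ) ^ 26 ≤ g.K.P.ρ0 ^ (-g.K.P.c0)) {i i' q r r' : ℕ}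
    {n n' : ℤ} (hii : i < i') (hq : q ∈ g.V) (hr : r ∈ g.V) (hr' : r' ∈ g.V)
    (hn : n ∈ Sh g q r) (hn' : n' ∈ Sh g q r') (h : TAs g i q r n) (h' : TAs g i' q r' n')
    (hnew : Nw g i' r') (hch : ∀ t, i < t → t ≤ i' → ¬ Nw g t q) :
    (∀ t, i < t → t ≤ i' → ¬ Nw g t r) ∨ ∃ t, i < t ∧ t ≤ i' ∧ Fell g t i' q := by
  rcases lemH_n hJ hX hV hc0 hρ0 hii hq hr hr' hn hn' h h' hnew hch with h1 | h1
  · exact Or.inl fun t ht ht' hn => h1 t ht ht' (Nwf.chg hn)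
  · exact Or.inr h1

end Vale.P028.SK
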