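-- RD-BASE fd6127fc06ed9f8527861133ab96d827cf3ee273
/-
Seat helper367 (P028, full BM, class C1): lemma (H) for the rest-rigid pairs with omitted parts.
-/
import Vale.Agent.P028.RD.R367.LemHn
import Vale.Agent.P028.RD.R367.TSCut
import Vale.Agent.P028.RD.H758.XTree

namespace Vale.P028.SK

open Finset CF RN

variable {g : Cfg}

/-- multiplication by a number prime to the denominator does not change the denominator -/
theorem den_mul_coprime' {x : ℚ} {u : ℕ} (h : Nat.Coprime u x.den) :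
    ((u : ℚ) * x).den = x.den := by
  have h1 : IsCoprime ((u : ℤ) * x.num) (x.den : ℤ) := by
    refine IsCoprime.mul_left ?_ (Rat.isCoprime_num_den x)
    exact Nat.isCoprime_iff_coprime.2 h
  have h2 : (u : ℚ) * x = ((u : ℤ) * x.num : ℤ) / (x.den : ℤ) := by
    have h3 : (x.num : ℚ) / x.den = x := Rat.num_div_den x
    conv_lhs => rw [← h3]
    push_cast
    ring
  rw [h2]
  have h4 := Rat.den_div_eq_of_coprime (a := (u : ℤ) * x.num) (b := (x.den : ℤ))
    (by exact_mod_cast x.den_pos) (by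
      have := Int.isCoprime_iff_gcd_eq_one.1 h1
      rw [Int.gcd] at this
      exact this)
  exact_mod_cast h4

/-- the radius of the automaton is comparable with the true one -/
theorem psi_dat (g : Cfg) (q : ℕ) : (dat g).ψ q ≤ ψ g q ∧ ψ g q ≤ 2 * (dat g).ψ q := by
  exact ⟨psit_le g q, le_two_psit g q⟩

/-- the true radius -/
noncomputable def rt (g : Cfg) (j q : ℕ) : ℝ := (M g j q : ℝ) * ψ g q

theorem rt_pos (j q : ℕ) : 0 < rt g j q :=
  mul_pos (by exact_mod_cast M_pos g j q) (ψ_pos g q)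

theorem rho_le_rt (j q : ℕ) : PA.rho (dat g) j q ≤ rt g j q :=
  mul_le_mul_of_nonneg_left (psi_dat g q).1 (Nat.cast_nonneg _)

theorem rt_le_rho (j q : ℕ) : rt g j q ≤ 2 * PA.rho (dat g) j q := by
  have h : rt g j q ≤ (M g j q : ℝ) * (2 * (dat g).ψ q) :=
    mul_le_mul_of_nonneg_left (psi_dat g q).2 (Nat.cast_nonneg _)
  calc rt g j q ≤ (M g j q : ℝ) * (2 * (dat g).ψ q) := h
    _ = 2 * ((M g j q : ℝ) * (dat g).ψ q) := by ring

theorem M_dvd_M {i j : ℕ} (hij : i ≤ j) (x : ℕ) : M g i x ∣ M g j x := by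
  induction j, hij using Nat.le_induction with
  | base => exact dvd_rfl
  | succ j _ ih => exact ih.trans (M_dvd g j x)

theorem rt_mono {i j : ℕ} (hij : i ≤ j) (q : ℕ) : rt g i q ≤ rt g j q := by
  refine mul_le_mul_of_nonneg_right ?_ (ψ_pos g q).le
  exact_mod_cast Nat.le_of_dvd (M_pos g j q) (M_dvd_M hij q)

/-- The data of an aligned pair at the stage `i`: the reduced cofactors are `A a` and `B b`, the
(omitted) parts `A`, `B` are prime to the denominators. -/
structure RAl (g : Cfg) (i q r : ℕ) (n : ℤ) (F G : ℚ) (A a B b : ℕ) : Prop where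
  cl : Clean g (z g i) q r
  e1 : rcof (z g i) (N g) (kc g q) q r = A * a
  e2 : rcof (z g i) (N g) (kc g q) r q = B * b
  sh : n ∈ Sh g q r
  al : (n : ℚ) + F * ((cofac r q : ℤ) : ℚ) - G * ((cofac q r : ℤ) : ℚ) = 0
  cA : Nat.Coprime A (((M g i r : ℕ) : ℚ) * G).den
  cB : Nat.Coprime B (((M g i q : ℕ) : ℚ) * F).den

section RAl

variable (hJ : JsOK g.K g.Js) (hX : g.Js ≤ g.X) (hV : g.V ⊆ Icc 1 (N g)) {i j q r : ℕ} {n : ℤ}
  {F G : ℚ} {A a B b : ℕ}

include hJ hX hV

/-- no difference of the pair between the stages `i` and `j` -/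
theorem RAl.M_ratio (hij : i ≤ j) (hq : q ∈ g.V) (hr : r ∈ g.V) (h : RAl g i q r n F G A a B b)
    (hp : ∀ p : ℕ, p.Prime → p ∣ A * a * (B * b) → p ≤ z g j ∨ z g i < p) :
    M g j q * M g i r = M g j r * M g i q := by
  have hz : zs g ≤ z g i := zs_le_z hJ hX i
  have hji : z g j ≤ z g i := z_anti g hij
  have hfe : ∀ p : ℕ, p.Prime → z g j < p → p ≤ z g i →
      r.factorization p = q.factorization p := by
    intro p pp h1 h2
    obtain ⟨f1, f2⟩ := rcof_fac hV hz hq hr h.cl pp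
    rw [if_pos h2] at f1 f2
    have g1 : ¬ p ∣ A * a * (B * b) := fun hd => by
      rcases hp p pp hd with h3 | h3 <;> omega
    have g2 : (rcof (z g i) (N g) (kc g q) q r).factorization p = 0 :=
      Nat.factorization_eq_zero_of_not_dvd fun hd => g1 (by
        rw [h.e1] at hd
        exact hd.trans (dvd_mul_right _ _))
    have g3 : (rcof (z g i) (N g) (kc g q) r q).factorization p = 0 :=
      Nat.factorization_eq_zero_of_not_dvd fun hd => g1 (by
        rw [h.e2] at hd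
        exact hd.trans (dvd_mul_left _ _))
    omega
  have hcell := (clean_cross hV hz hq hr h.cl).1
  have hcell' : r ∈ NT.cell g.V (f g) (thr g) (N g) (z g j) q := cell_down hr hcell hfe hji
  refine Nat.eq_of_factorization_eq (Nat.mul_ne_zero (M_pos g _ _).ne' (M_pos g _ _).ne')
    (Nat.mul_ne_zero (M_pos g _ _).ne' (M_pos g _ _).ne') fun p => ?_
  rw [Nat.factorization_mul (M_pos g _ _).ne' (M_pos g _ _).ne',
    Nat.factorization_mul (M_pos g _ _).ne' (M_pos g _ _).ne', Finsupp.add_apply,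
    Finsupp.add_apply, M_fac', M_fac', M_fac', M_fac']
  by_cases h1 : p ∈ PO (z g i) (N g)
  · have h2 : p ∈ PO (z g j) (N g) := PO_mono hji h1
    rw [if_pos h1, if_pos h1, if_pos h2, if_pos h2]
    omega
  · rw [if_neg h1, if_neg h1]
    by_cases h2 : p ∈ PO (z g j) (N g)
    · rw [if_pos h2, if_pos h2]
      obtain ⟨h3, h4, h5⟩ := mem_PO.1 h2
      have h6 : p ≤ z g i := by
        by_contra h7
        exact h1 (mem_PO.2 ⟨h3, by omega, h5⟩)
      rw [kc_congr hcell' h4, hfe p h3 h4 h6]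
    · rw [if_neg h2, if_neg h2]

theorem RAl.cof (hq : q ∈ g.V) (hr : r ∈ g.V) (h : RAl g i q r n F G A a B b) :
    cofac q r = M g i r * (A * a) ∧ cofac r q = M g i q * (B * b) ∧ 0 < A * a ∧ 0 < B * b := by
  obtain ⟨e1, e2, -, h4, h5⟩ := clean_cofac hV (zs_le_z hJ hX i) hq hr h.cl
  rw [h.e1] at e1 h4
  rw [h.e2] at e2 h5
  exact ⟨e1, e2, h4, h5⟩

/-- the radii at a later stage -/
theorem RAl.rt_eq (hij : i ≤ j) (hq : q ∈ g.V) (hr : r ∈ g.V) (h : RAl g i q r n F G A a B b)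
    (hp : ∀ p : ℕ, p.Prime → p ∣ A * a * (B * b) → p ≤ z g j ∨ z g i < p) :
    rt g j q * (B * b) = rt g j r * (A * a) := by
  have hX1 : 1 ≤ g.X := by linarith [hJ.1]
  have h1 := h.M_ratio hJ hX hV hij hq hr hp
  obtain ⟨h2, h3⟩ := Dl_eq (g := g) hX1 (mem_Icc.1 (hV hq)).1 (mem_Icc.1 (hV hr)).1
  obtain ⟨c1, c2, -, -⟩ := h.cof hJ hX hV hq hr
  rw [c2] at h2
  rw [c1] at h3
  have h4 : ((M g i q * (B * b) : ℕ) : ℝ) * ψ g q = (M g i r * (A * a) : ℕ) * ψ g r :=
    h2.trans h3.symm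
  have h5 : (M g j q : ℝ) * M g i r = M g j r * M g i q := by exact_mod_cast h1
  have hM : (0 : ℝ) < M g i r := by exact_mod_cast M_pos g i r
  push_cast at h4
  unfold rt
  have h6 : ((M g j q : ℝ) * ψ g q * (B * b)) * M g i r =
      (M g j r * ψ g r * (A * a)) * M g i r := by
    calc ((M g j q : ℝ) * ψ g q * (B * b)) * M g i r =
        (M g j q * M g i r) * (ψ g q * (B * b)) := by ring
      _ = M g j r * (M g i q * (B * b) * ψ g q) := by rw [h5]; ring
      _ = _ := by rw [h4]; ring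
  exact mul_right_cancel₀ hM.ne' h6

/-- the denominators at a later stage -/
theorem RAl.den_le (hij : i ≤ j) (hq : q ∈ g.V) (hr : r ∈ g.V) (h : RAl g i q r n F G A a B b)
    (hp : ∀ p : ℕ, p.Prime → p ∣ A * a * (B * b) → p ≤ z g j ∨ z g i < p) :
    (((M g j r : ℕ) : ℚ) * G).den ≤ a * (((M g j q : ℕ) : ℚ) * F).den ∧
      (((M g j q : ℕ) : ℚ) * F).den ≤ b * (((M g j r : ℕ) : ℚ) * G).den := by
  have h1 := h.M_ratio hJ hX hV hij hq hr hp
  obtain ⟨c1, c2, c3, c4⟩ := h.cof hJ hX hV hq hr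
  have ha : 0 < a := Nat.pos_of_ne_zero fun h0 => by
    rw [h0, mul_zero] at c3
    exact lt_irrefl _ c3
  have hb : 0 < b := Nat.pos_of_ne_zero fun h0 => by
    rw [h0, mul_zero] at c4
    exact lt_irrefl _ c4
  obtain ⟨c, hc⟩ := M_dvd_M (g := g) hij q
  have hcr : M g j r = M g i r * c := by
    rw [hc] at h1
    have h2 : M g i q * (M g i r * c) = M g i q * M g j r := by
      calc M g i q * (M g i r * c) = M g i q * c * M g i r := by ring
        _ = _ := by rw [h1]; ring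
    exact (Nat.eq_of_mul_eq_mul_left (M_pos g i q) h2).symm
  set x : ℚ := ((M g j r : ℕ) : ℚ) * G with hx
  set y : ℚ := ((M g j q : ℕ) : ℚ) * F with hy
  have h3 : ((A * a : ℕ) : ℚ) * x = ((B * b : ℕ) : ℚ) * y + ((c * n : ℤ) : ℚ) := by
    have h4 := h.al
    rw [c1, c2] at h4
    rw [hx, hy, hc, hcr]
    push_cast at h4 ⊢
    linear_combination -(c : ℚ) * h4
  have h5 : (((A * a : ℕ) : ℚ) * x).den = (((B * b : ℕ) : ℚ) * y).den := by
    rw [h3]
    exact Rat.add_intCast_den _ _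
  have hcA : Nat.Coprime A x.den := by
    refine Nat.Coprime.coprime_dvd_right ?_ h.cA
    rw [hx, hcr]
    have e : (((M g i r * c : ℕ) : ℕ) : ℚ) * G = (c : ℚ) * (((M g i r : ℕ) : ℚ) * G) := by
      push_cast
      ring
    rw [e]
    exact PA.den_mul_dvd c _
  have hcB : Nat.Coprime B y.den := by
    refine Nat.Coprime.coprime_dvd_right ?_ h.cB
    rw [hy, hc]
    have e : (((M g i q * c : ℕ) : ℕ) : ℚ) * F = (c : ℚ) * (((M g i q : ℕ) : ℚ) * F) := by
      push_cast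
      ring
    rw [e]
    exact PA.den_mul_dvd c _
  have hA : (((A * a : ℕ) : ℚ) * x).den = ((a : ℚ) * x).den := by
    have e : (((A * a : ℕ)) : ℚ) * x = (A : ℚ) * ((a : ℚ) * x) := by
      push_cast
      ring
    rw [e]
    exact den_mul_coprime' (Nat.Coprime.coprime_dvd_right (PA.den_mul_dvd a x) hcA)
  have hB : (((B * b : ℕ) : ℚ) * y).den = ((b : ℚ) * y).den := by
    have e : (((B * b : ℕ)) : ℚ) * y = (B : ℚ) * ((b : ℚ) * y) := by
      push_cast
      ring
    rw [e]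
    exact den_mul_coprime' (Nat.Coprime.coprime_dvd_right (PA.den_mul_dvd b y) hcB)
  rw [hA, hB] at h5
  constructor
  · have h6 := den_dvd_mul_den ha x
    have h7 : ((b : ℚ) * y).den ∣ y.den := PA.den_mul_dvd b y
    calc x.den ≤ a * ((a : ℚ) * x).den :=
          Nat.le_of_dvd (Nat.mul_pos ha (Rat.den_pos _)) h6
      _ ≤ a * y.den := by
          rw [h5]
          exact Nat.mul_le_mul_left _ (Nat.le_of_dvd (Rat.den_pos _) h7)
  · have h6 := den_dvd_mul_den hb y
    have h7 : ((a : ℚ) * x).den ∣ x.den := PA.den_mul_dvd a x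
    calc y.den ≤ b * ((b : ℚ) * y).den :=
          Nat.le_of_dvd (Nat.mul_pos hb (Rat.den_pos _)) h6
      _ ≤ b * x.den := by
          rw [← h5]
          exact Nat.mul_le_mul_left _ (Nat.le_of_dvd (Rat.den_pos _) h7)

/-- comparison of the complexities at a later stage -/
theorem RAl.KK_le (hij : i ≤ j) (hq : q ∈ g.V) (hr : r ∈ g.V) (h : RAl g i q r n F G A a B b)
    (hp : ∀ p : ℕ, p.Prime → p ∣ A * a * (B * b) → p ≤ z g j ∨ z g i < p) :
    CF.KK g j r G ≤ 2 * a * CF.KK g j q F + 4 ∧ CF.KK g j q F ≤ 2 * b * CF.KK g j r G + 4 := by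
  have hX1 : 1 ≤ g.X := by linarith [hJ.1]
  have hq1 := (mem_Icc.1 (hV hq)).1
  have hr1 := (mem_Icc.1 (hV hr)).1
  obtain ⟨d1, d2⟩ := h.den_le hJ hX hV hij hq hr hp
  obtain ⟨-, -, c3, c4⟩ := h.cof hJ hX hV hq hr
  have ha : 1 ≤ a := Nat.pos_of_ne_zero fun h0 => by
    rw [h0, mul_zero] at c3
    exact lt_irrefl _ c3
  have hb : 1 ≤ b := Nat.pos_of_ne_zero fun h0 => by
    rw [h0, mul_zero] at c4
    exact lt_irrefl _ c4
  have haR : (1 : ℝ) ≤ a := by exact_mod_cast ha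
  have hbR : (1 : ℝ) ≤ b := by exact_mod_cast hb
  have w1 := arch_le hX1 hq1 hr1 h.sh h.al
  have hal' : ((-n : ℤ) : ℚ) + G * ((cofac q r : ℤ) : ℚ) - F * ((cofac r q : ℤ) : ℚ) = 0 := by
    have := h.al
    push_cast at this ⊢
    linarith
  have w2 := arch_le hX1 hr1 hq1 (Sh_neg h.sh) hal'
  have hψ : ∀ x : ℕ, ∀ Y : ℝ, 0 ≤ Y → Y / (dat g).ψ x ≤ 2 * (Y / ψ g x) ∧
      Y / ψ g x ≤ Y / (dat g).ψ x := by
    intro x Y hY
    obtain ⟨p1, p2⟩ := psi_dat g x
    have p3 := ψ_pos g x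
    have p4 := (dat g).ψ_pos x
    constructor
    · rw [div_le_iff₀ p4, show 2 * (Y / ψ g x) * (dat g).ψ x = Y * (2 * (dat g).ψ x / ψ g x) by
        ring]
      refine le_mul_of_one_le_right hY ?_
      rw [one_le_div p3]
      exact p2
    · exact div_le_div_of_nonneg_left hY p4 p1
  have q1 := hψ q _ (abs_nonneg (g.γ - (F : ℝ)))
  have q2 := hψ r _ (abs_nonneg (g.γ - (G : ℝ)))
  have e1 : CF.KK g j q F = max ((((M g j q : ℕ) : ℚ) * F).den : ℝ)
      (|g.γ - (F : ℝ)| / (dat g).ψ q) := rfl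
  have e2 : CF.KK g j r G = max ((((M g j r : ℕ) : ℚ) * G).den : ℝ)
      (|g.γ - (G : ℝ)| / (dat g).ψ r) := rfl
  have m1 := le_max_left ((((M g j q : ℕ) : ℚ) * F).den : ℝ) (|g.γ - (F : ℝ)| / (dat g).ψ q)
  have m2 := le_max_right ((((M g j q : ℕ) : ℚ) * F).den : ℝ) (|g.γ - (F : ℝ)| / (dat g).ψ q)
  have m3 := le_max_left ((((M g j r : ℕ) : ℚ) * G).den : ℝ) (|g.γ - (G : ℝ)| / (dat g).ψ r)
  have m4 := le_max_right ((((M g j r : ℕ) : ℚ) * G).den : ℝ) (|g.γ - (G : ℝ)| / (dat g).ψ r)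
  rw [← e1] at m1 m2
  rw [← e2] at m3 m4
  have k1 : 0 ≤ CF.KK g j q F := le_trans (Nat.cast_nonneg _) m1
  have k2 : 0 ≤ CF.KK g j r G := le_trans (Nat.cast_nonneg _) m3
  constructor
  · rw [e2]
    refine max_le ?_ ?_
    · have d1' : ((((M g j r : ℕ) : ℚ) * G).den : ℝ) ≤
          a * ((((M g j q : ℕ) : ℚ) * F).den : ℝ) := by exact_mod_cast d1
      nlinarith
    · nlinarith [q1.1, q1.2, q2.1, q2.2]
  · rw [e1]
    refine max_le ?_ ?_
    · have d2' : ((((M g j q : ℕ) : ℚ) * F).den : ℝ) ≤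
          b * ((((M g j r : ℕ) : ℚ) * G).den : ℝ) := by exact_mod_cast d2
      nlinarith
    · nlinarith [q1.1, q1.2, q2.1, q2.2]

end RAl

/-! ### The numbers -/

theorem log_max_le {x x' a : ℝ} (hx : 1 ≤ x) (hx' : 1 ≤ x') (e1 : x' ≤ 2 * a * x + 4)
    (s1 : a ≤ (max x x') ^ (1 / 8 : ℝ)) :
    Real.log (max x x') ≤ (8 / 7) * (3 * Real.log 2 + Real.log x) := by
  set S := max x x' with hS
  have hS1 : 1 ≤ S := hx.trans (le_max_left _ _)
  have hSp : (1 : ℝ) ≤ S ^ (1 / 8 : ℝ) := Real.one_le_rpow hS1 (by norm_num)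
  have h1 : S ≤ S ^ (1 / 8 : ℝ) * (8 * x) := by
    refine max_le ?_ ?_
    · nlinarith
    · refine e1.trans ?_
      have h2 : 2 * a * x ≤ 2 * S ^ (1 / 8 : ℝ) * x := by
        have := mul_le_mul_of_nonneg_right s1 (by linarith : (0 : ℝ) ≤ x)
        linarith
      nlinarith
  have h2 := Real.log_le_log (by linarith) h1
  have hx0 : 0 < x := by linarith
  rw [Real.log_mul (by positivity) (by positivity), Real.log_rpow (by linarith),
    Real.log_mul (by norm_num) hx0.ne', show (8 : ℝ) = 2 ^ 3 by norm_num, Real.log_pow] at h2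
  push_cast at h2
  linarith

theorem rest_num {c0 x x' κ k κ' ρ ρ' a b a' b' : ℝ} (hc : 0 < c0) (hc0 : c0 ≤ 1 / 48)
    (hk : 1 ≤ k) (hx : 1 ≤ x) (hx' : 1 ≤ x') (hκ' : 1 ≤ κ') (ha' : 1 ≤ a') (hb : 1 ≤ b)
    (e1 : x' ≤ 2 * a * x + 4) (e2 : κ ≤ x') (e3 : k ≤ 2 * b' * κ' + 4)
    (s1 : a ≤ (max x x') ^ (1 / 8 : ℝ)) (s2 : b ≤ (max x x') ^ (1 / 8 : ℝ))
    (s3 : a' ≤ (max k κ') ^ (1 / 8 : ℝ)) (s4 : b' ≤ (max k κ') ^ (1 / 8 : ℝ))
    (hκ : (2 : ℝ) ^ 30 ≤ κ) (hρ : 0 < ρ) (hρ' : 0 < ρ') (h1 : 1 ≤ 2 * κ ^ 3 * ρ)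
    (h2 : ρ ≤ 4 * (b * a') * ρ') (h3 : κ' ≤ ρ' ^ (-c0)) :
    k ^ 4 ≤ x ∧ κ ≤ x ^ 2 := by
  have hL : 0 < Real.log 2 := Real.log_pos (by norm_num)
  set L := Real.log 2 with hLd
  have hκ0 : 0 < κ := lt_of_lt_of_le (by positivity) hκ
  set S := max x x' with hS
  have hS1 : 1 ≤ S := hx.trans (le_max_left _ _)
  have lS := log_max_le hx hx' e1 s1
  rw [← hS, ← hLd] at lS
  have lκS : Real.log κ ≤ Real.log S :=
    Real.log_le_log hκ0 (e2.trans (le_max_right _ _))
  have lκ : 30 * L ≤ Real.log κ := by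
    have := Real.log_le_log (by positivity) hκ
    rw [Real.log_pow] at this
    push_cast at this
    exact this
  have lx0 : 0 ≤ Real.log x := Real.log_nonneg hx
  constructor
  · by_contra hcon
    push Not at hcon
    have lx : Real.log x ≤ 4 * Real.log k := by
      have := Real.log_le_log (by linarith) hcon.le
      rw [Real.log_pow] at this
      push_cast at this
      exact this
    rw [max_comm] at s3 s4
    have lS' := log_max_le hκ' hk e3 s4
    set S' := max κ' k with hS'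
    rw [← hLd] at lS'
    have hS'1 : 1 ≤ S' := hκ'.trans (le_max_left _ _)
    have lkS : Real.log k ≤ Real.log S' :=
      Real.log_le_log (by linarith) (le_max_right _ _)
    have lb : Real.log b ≤ (1 / 8) * Real.log S := by
      have := Real.log_le_log (by linarith) s2
      rwa [Real.log_rpow (by linarith)] at this
    have la : Real.log a' ≤ (1 / 8) * Real.log S' := by
      have := Real.log_le_log (by linarith) s3
      rwa [Real.log_rpow (by linarith)] at this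
    have lρ : 0 ≤ L + 3 * Real.log κ + Real.log ρ := by
      have := Real.log_le_log one_pos h1
      rw [Real.log_one, Real.log_mul (by positivity) hρ.ne', Real.log_mul (by norm_num)
        (by positivity), Real.log_pow] at this
      push_cast at this
      exact this
    have lρ' : Real.log ρ ≤ 2 * L + (Real.log b + Real.log a') + Real.log ρ' := by
      have := Real.log_le_log hρ h2
      rw [Real.log_mul (by positivity) hρ'.ne', Real.log_mul (by norm_num) (by positivity),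
        Real.log_mul (by positivity) (by positivity), show (4 : ℝ) = 2 ^ 2 by norm_num,
        Real.log_pow] at this
      push_cast at this
      exact this
    have lκ' : Real.log κ' ≤ c0 * (-Real.log ρ') := by
      have := Real.log_le_log (by linarith) h3
      rw [Real.log_rpow hρ'] at this
      linarith
    have lb0 : 0 ≤ Real.log b := Real.log_nonneg hb
    have la0 : 0 ≤ Real.log a' := Real.log_nonneg ha'
    have hQ : c0 * (-Real.log ρ') ≤
        (1 / 48) * (3 * L + (Real.log b + Real.log a') + 3 * Real.log κ) := by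
      have q1 : -Real.log ρ' ≤ 3 * L + (Real.log b + Real.log a') + 3 * Real.log κ := by linarith
      have q2 : 0 ≤ 3 * L + (Real.log b + Real.log a') + 3 * Real.log κ := by linarith
      calc c0 * (-Real.log ρ')
          ≤ c0 * (3 * L + (Real.log b + Real.log a') + 3 * Real.log κ) :=
            mul_le_mul_of_nonneg_left q1 hc.le
        _ ≤ _ := mul_le_mul_of_nonneg_right hc0 q2
    linarith
  · have h4 : Real.log κ ≤ 2 * Real.log x := by linarith
    have h5 : 2 * Real.log x = Real.log (x ^ 2) := by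
      rw [Real.log_pow]
      push_cast
      ring
    rw [h5] at h4
    exact (Real.log_le_log_iff hκ0 (by positivity)).1 h4

/-! ### The drop -/

/-- the fraction of `q` at the stage `j` has been a candidate at some stage `b ≤ j`, and its
complexity has fallen below the fourth root of its denominator -/
def Drp (g : Cfg) (j q : ℕ) : Prop := ∃ b ≤ j, ∃ F : ℚ, PA.IsCand g.K.P (dat g) b q F ∧
  (∃ c, st g j q = some (F, c)) ∧
  (CF.KK g j q F) ^ 4 ≤ ((((M g b q : ℕ) : ℚ) * F).den : ℝ) ∧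
  Real.log (z g j) ≤ ((((M g b q : ℕ) : ℚ) * F).den : ℝ) ^ (2 * g.K.P.c4) ∧
  (2 : ℝ) ^ 15 ≤ ((((M g b q : ℕ) : ℚ) * F).den : ℝ)

/-- a fraction has been adopted -/
theorem exists_cand {i q : ℕ} {F : ℚ} {c : Bool} (h : st g i q = some (F, c)) :
    ∃ b ≤ i, PA.IsCand g.K.P (dat g) b q F := by
  induction i generalizing c with
  | zero =>
    have h1 : st g 0 q = none := rfl
    rw [h1] at h
    exact absurd h (by simp)
  | succ i ih =>
    by_cases hch : ChS g (i + 1) q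
    · rcases PA.ChS.cases _ _ hch with ⟨F', h1, h2, -⟩ | ⟨F₁, F', h1, h2, -⟩
      · have h3 : PA.st g.K.P (dat g) (i + 1) q = some (F, c) := h
        rw [h1, Option.some.injEq, Prod.mk.injEq] at h3
        obtain ⟨rfl, -⟩ := h3
        exact ⟨i + 1, le_rfl, h2⟩
      · have h3 : PA.st g.K.P (dat g) (i + 1) q = some (F, c) := h
        rw [h2, Option.some.injEq, Prod.mk.injEq] at h3
        obtain ⟨rfl, -⟩ := h3
        rw [Nat.add_sub_cancel] at h1
        obtain ⟨b, hb, hb'⟩ := ih h1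
        exact ⟨b, by omega, hb'⟩
    · have h1 : st g (i + 1) q = st g i q := by
        by_contra hne
        refine hch ⟨by omega, ?_⟩
        rw [Nat.add_sub_cancel]
        exact hne
      rw [h1] at h
      obtain ⟨b, hb, hb'⟩ := ih h
      exact ⟨b, by omega, hb'⟩

/-- from the numbers to the drop -/
theorem Drp.of {i i' q : ℕ} {F : ℚ} {c c' : Bool} {κ : ℝ} (hii : i ≤ i')
    (h1 : st g i q = some (F, c)) (h2 : st g i' q = some (F, c'))
    (h3 : (CF.KK g i' q F) ^ 4 ≤ CF.KK g i q F) (h4 : κ ≤ (CF.KK g i q F) ^ 2)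
    (h5 : (2 : ℝ) ^ 30 ≤ κ) (h6 : Real.log (z g i') ≤ κ ^ g.K.P.c4) : Drp g i' q := by
  obtain ⟨b, hb, hb'⟩ := exists_cand h1
  have hκ0 : 0 < κ := lt_of_lt_of_le (by positivity) h5
  have hk1 : 1 ≤ CF.KK g i' q F := PA.one_le_KK _ _ _ _
  have hx1 : 1 ≤ CF.KK g i q F := PA.one_le_KK _ _ _ _
  have hx15 : (2 : ℝ) ^ 15 ≤ CF.KK g i q F := by
    by_contra hcon
    push Not at hcon
    have : CF.KK g i q F ^ 2 < ((2 : ℝ) ^ 15) ^ 2 := by
      refine pow_lt_pow_left₀ hcon (by linarith) (by norm_num)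
    have e : ((2 : ℝ) ^ 15) ^ 2 = 2 ^ 30 := by norm_num
    linarith
  -- the Archimedean part is small
  have ha : |g.γ - (F : ℝ)| / (dat g).ψ q ≤ CF.KK g i' q F := le_max_right _ _
  have hlt : |g.γ - (F : ℝ)| / (dat g).ψ q < CF.KK g i q F := by
    refine lt_of_le_of_lt ha ?_
    by_contra hcon
    push Not at hcon
    have h7 : (2 : ℝ) ^ 15 ≤ CF.KK g i' q F := hx15.trans hcon
    have h8 : CF.KK g i' q F * 2 ≤ CF.KK g i' q F ^ 4 := by
      have h9 : (2 : ℝ) ≤ CF.KK g i' q F ^ 3 := by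
        have h10 : (2 : ℝ) ≤ CF.KK g i' q F := le_trans (by norm_num) h7
        calc (2 : ℝ) ≤ CF.KK g i' q F := h10
          _ = CF.KK g i' q F ^ 1 := (pow_one _).symm
          _ ≤ CF.KK g i' q F ^ 3 := pow_le_pow_right₀ hk1 (by norm_num)
      calc CF.KK g i' q F * 2 ≤ CF.KK g i' q F * CF.KK g i' q F ^ 3 := by gcongr
        _ = _ := by ring
    have h9 : CF.KK g i' q F ≤ CF.KK g i q F := PA.KK_anti' hii q F
    have h10 : CF.KK g i q F ≤ CF.KK g i' q F := hcon
    linarith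
  have hden : CF.KK g i q F = ((((M g i q : ℕ) : ℚ) * F).den : ℝ) := by
    have e : CF.KK g i q F = max ((((M g i q : ℕ) : ℚ) * F).den : ℝ)
      (|g.γ - (F : ℝ)| / (dat g).ψ q) := rfl
    rcases le_total (|g.γ - (F : ℝ)| / (dat g).ψ q) ((((M g i q : ℕ) : ℚ) * F).den : ℝ) with h7 | h7
    · rw [e, max_eq_left h7]
    · rw [e, max_eq_right h7] at hlt
      exact absurd hlt (lt_irrefl _)
  have hden2 : CF.KK g i q F ≤ ((((M g b q : ℕ) : ℚ) * F).den : ℝ) := by
    rw [hden]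
    have h7 : (((M g i q : ℕ) : ℚ) * F).den ∣ (((M g b q : ℕ) : ℚ) * F).den := by
      obtain ⟨m, hm⟩ := M_dvd_M (g := g) hb q
      have e : (((M g i q : ℕ)) : ℚ) * F = (m : ℚ) * (((M g b q : ℕ) : ℚ) * F) := by
        rw [hm]
        push_cast
        ring
      rw [e]
      exact PA.den_mul_dvd m _
    exact_mod_cast Nat.le_of_dvd (Rat.den_pos _) h7
  refine ⟨b, hb.trans hii, F, hb', ⟨c', h2⟩, h3.trans hden2, ?_, hx15.trans hden2⟩
  calc Real.log (z g i') ≤ κ ^ g.K.P.c4 := h6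
    _ ≤ (CF.KK g i q F ^ 2) ^ g.K.P.c4 := Real.rpow_le_rpow hκ0.le h4 g.K.P.c4_pos.le
    _ = CF.KK g i q F ^ (2 * g.K.P.c4) := by
        rw [← Real.rpow_natCast, ← Real.rpow_mul (by linarith)]
        push_cast
        ring_nf
    _ ≤ _ := Real.rpow_le_rpow (by linarith) hden2 (by have := g.K.P.c4_pos; positivity)

/-- **Lemma (H), rest-rigid pairs with omitted parts.** `i < i'`, `q` keeps its fraction `F` on
`[i, i']`, `(q, r)` is aligned at `i`, `(q, r')` at `i'` (with the same omitted parts `A`, `B`, the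
rest parts at most the eighth root of the complexities), `r'` is new at `i'`, and there is no rest
difference of `(q, r)` between `z_i` and the stage of the first change of `r`. Then `r` does not
change in `(i, i']`, unless the fraction of `q` has dropped at `i'`. -/
theorem lemH_rest (hJ : JsOK g.K g.Js) (hX : g.Js ≤ g.X) (hV : g.V ⊆ Icc 1 (N g))
    (hc0 : g.K.P.c0 ≤ 1 / 48) (hρ0 : (2 : ℝ) ^ 30 ≤ g.K.P.ρ0 ^ (-g.K.P.c0)) {i i' q r r' : ℕ}
    {n n' : ℤ} {F G G' : ℚ} {c c₁ c₂ : Bool} {A a B b a' b' : ℕ} (hii : i < i') (hq : q ∈ g.V)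
    (hr : r ∈ g.V) (hr' : r' ∈ g.V) (sq : st g i q = some (F, c)) (sr : st g i r = some (G, c₁))
    (sr' : st g i' r' = some (G', c₂)) (h : RAl g i q r n F G A a B b)
    (h' : RAl g i' q r' n' F G' A a' B b') (hnew : Nwf g i' r')
    (hch : ∀ t, i < t → t ≤ i' → ¬ Nwf g t q)
    (ha : (a : ℝ) ≤ (max (CF.KK g i q F) (CF.KK g i r G)) ^ (1 / 8 : ℝ))
    (hb : (b : ℝ) ≤ (max (CF.KK g i q F) (CF.KK g i r G)) ^ (1 / 8 : ℝ))
    (ha' : (a' : ℝ) ≤ (max (CF.KK g i' q F) (CF.KK g i' r' G')) ^ (1 / 8 : ℝ))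
    (hb' : (b' : ℝ) ≤ (max (CF.KK g i' q F) (CF.KK g i' r' G')) ^ (1 / 8 : ℝ))
    (hAB : ∀ p : ℕ, p.Prime → p ∣ A * B → p ≤ z g i')
    (hrest : ∀ t, i < t → t ≤ i' → Chg g t r → (∀ s, i < s → s < t → ¬ Chg g s r) →
      ∀ p : ℕ, p.Prime → p ∣ a * b → p ≤ z g t ∨ z g i < p) :
    (∀ t, i < t → t ≤ i' → ¬ Chg g t r) ∨ Drp g i' q := by
  by_contra hcon
  push Not at hcon
  obtain ⟨⟨t₀, ht1, ht2, ht3⟩, hno⟩ := hcon
  -- the first change
  classical
  have hex : ∃ t, i < t ∧ t ≤ i' ∧ Chg g t r := ⟨t₀, ht1, ht2, ht3⟩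
  set t := Nat.find hex with ht
  obtain ⟨hit, hti, hct⟩ := Nat.find_spec hex
  have hmin : ∀ s, i < s → s < t → ¬ Chg g s r := by
    intro s hs hs' hcs
    exact Nat.find_min hex (by omega : s < Nat.find hex) ⟨hs, by omega, hcs⟩
  have hrs : st g (t - 1) r = some (G, c₁) := by
    rw [st_const (by omega : i ≤ t - 1) fun s hs hs' => hmin s hs (by omega), sr]
  have hw := wants_of_chg hrs hct
  have hκ1 : g.K.P.ρ0 ^ (-g.K.P.c0) < CF.KK g t r G := PA.wants_large hrs hw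
  have hκ2 : 1 ≤ 2 * (CF.KK g t r G) ^ 3 * PA.rho (dat g) t r := PA.wants_rho hrs hw
  -- the primes
  have hpt : ∀ p : ℕ, p.Prime → p ∣ A * a * (B * b) → p ≤ z g t ∨ z g i < p := by
    intro p pp hd
    have e : A * a * (B * b) = (A * B) * (a * b) := by ring
    rw [e] at hd
    rcases (Nat.Prime.dvd_mul pp).1 hd with h1 | h1
    · exact Or.inl ((hAB p pp h1).trans (z_anti g hti))
    · exact hrest t hit hti hct hmin p pp h1
  have hpi : ∀ (k : ℕ) (m : ℕ), ∀ p : ℕ, p.Prime → p ∣ m → p ≤ z g k ∨ z g k < p :=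
    fun k m p _ _ => le_or_gt _ _
  -- positivity
  obtain ⟨-, -, c3, c4⟩ := h.cof hJ hX hV hq hr
  obtain ⟨-, -, c5, c6⟩ := h'.cof hJ hX hV hq hr'
  have pos2 : ∀ {x y : ℕ}, 0 < x * y → 1 ≤ x ∧ 1 ≤ y := by
    intro x y hxy
    constructor
    · exact Nat.pos_of_ne_zero fun h0 => by
        rw [h0, zero_mul] at hxy
        exact lt_irrefl _ hxy
    · exact Nat.pos_of_ne_zero fun h0 => by
        rw [h0, mul_zero] at hxy
        exact lt_irrefl _ hxy
  obtain ⟨A1, a1⟩ := pos2 c3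
  obtain ⟨B1, b1⟩ := pos2 c4
  obtain ⟨-, a'1⟩ := pos2 c5
  obtain ⟨-, b'1⟩ := pos2 c6
  have A1R : (1 : ℝ) ≤ A := by exact_mod_cast A1
  have B1R : (1 : ℝ) ≤ B := by exact_mod_cast B1
  have a1R : (1 : ℝ) ≤ a := by exact_mod_cast a1
  have b1R : (1 : ℝ) ≤ b := by exact_mod_cast b1
  have a'1R : (1 : ℝ) ≤ a' := by exact_mod_cast a'1
  have b'1R : (1 : ℝ) ≤ b' := by exact_mod_cast b'1
  -- the radii
  have R1 := h.rt_eq hJ hX hV hit.le hq hr hpt
  have R2 := h'.rt_eq hJ hX hV le_rfl hq hr' (hpi i' _)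
  have R3 : rt g t q ≤ rt g i' q := rt_mono hti q
  have P1 : 0 < rt g t r := rt_pos t r
  have P2 : 0 < rt g i' r' := rt_pos i' r'
  have hrad : rt g t r ≤ (b * a') * rt g i' r' := by
    have s1 : rt g t r * (A * a) * b' = rt g t q * (B * b) * b' := by rw [R1]
    have s2 : rt g t q * (B * b) * b' ≤ rt g i' q * (B * b) * b' := by gcongr
    have s3 : rt g i' q * (B * b) * b' = rt g i' r' * (A * a') * b := by
      calc rt g i' q * (B * b) * b' = rt g i' q * (B * b') * b := by ring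
        _ = _ := by rw [R2]
    have s4 : rt g t r * (A * a) * b' ≤ rt g i' r' * (A * a') * b := by linarith
    have s5 : (rt g t r * (a * b')) * A ≤ (rt g i' r' * (a' * b)) * A := by
      calc (rt g t r * (a * b')) * A = rt g t r * (A * a) * b' := by ring
        _ ≤ rt g i' r' * (A * a') * b := s4
        _ = _ := by ring
    have s6 : rt g t r * (a * b') ≤ rt g i' r' * (a' * b) :=
      le_of_mul_le_mul_right s5 (by linarith)
    have s7 : rt g t r ≤ rt g t r * (a * b') :=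
      le_mul_of_one_le_right P1.le (one_le_mul_of_one_le_of_one_le a1R b'1R)
    calc rt g t r ≤ rt g i' r' * (a' * b) := s7.trans s6
      _ = _ := by ring
  have hρρ : PA.rho (dat g) t r ≤ 4 * (b * a') * PA.rho (dat g) i' r' := by
    have s1 := rho_le_rt (g := g) t r
    have s2 := rt_le_rho (g := g) i' r'
    have s3 : (b * a' : ℝ) * rt g i' r' ≤ (b * a') * (2 * PA.rho (dat g) i' r') :=
      mul_le_mul_of_nonneg_left s2 (by positivity)
    have s4 : 0 ≤ (b * a' : ℝ) * PA.rho (dat g) i' r' := by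
      have := PA.rho_pos (dat g) i' r'
      positivity
    nlinarith
  -- the stage `i'`
  have hcand : PA.IsCand g.K.P (dat g) i' r' G' := by
    obtain ⟨m1, F₂, b₂, m2, m3⟩ := hnew
    rw [sr', Option.some.injEq, Prod.mk.injEq] at m2
    obtain ⟨rfl, rfl⟩ := m2
    exact PA.cand_of_new _ _ m1 sr' m3
  have K1 := (h.KK_le hJ hX hV le_rfl hq hr (hpi i _)).1
  have K2 : CF.KK g t r G ≤ CF.KK g i r G := PA.KK_anti' hit.le r G
  have K3 := (h'.KK_le hJ hX hV le_rfl hq hr' (hpi i' _)).2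
  obtain ⟨f1, f2⟩ := rest_num g.K.P.c0_pos hc0 (PA.one_le_KK _ _ _ _) (PA.one_le_KK _ _ _ _)
    (PA.one_le_KK _ _ _ _) (PA.one_le_KK _ _ _ _) a'1R b1R K1 K2 K3 ha hb ha' hb'
    (hρ0.trans hκ1.le) (PA.rho_pos _ _ _) (PA.rho_pos _ _ _) hκ2 hρρ hcand.2
  obtain ⟨c₃, hc₃⟩ := fr_const hii.le hch sq
  obtain ⟨G₀, G₁, w1, w2, w3, w4, w5⟩ := hw
  have hrs' : PA.st g.K.P (dat g) (t - 1) r = some (G, c₁) := hrs
  rw [hrs', Option.some.injEq, Prod.mk.injEq] at w1
  obtain ⟨rfl, -⟩ := w1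
  refine hno (Drp.of hii.le sq hc₃ f1 f2 (hρ0.trans hκ1.le) ?_)
  refine le_trans ?_ w5
  have hz : (z g i' : ℝ) ≤ z g t := by exact_mod_cast z_anti g hti
  refine Real.log_le_log ?_ hz
  exact_mod_cast lt_of_lt_of_le one_pos (CF.one_le_z g i')

end Vale.P028.SK
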