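-- RD-BASE a18085af1a8ee954573c136e0ee7ef97f2d45e6d
/-
Seat helper367 (P028, full BM, class C1): lemma (H) for the classes of 226.
-/
import Vale.Agent.P028.RD.R226.C1
import Vale.Agent.P028.RD.R367.LemHr

namespace Vale.P028.SK

open Finset CF RN

variable {g : Cfg}

/-- the primes of the omitted part -/
theorem dvd_omt' {d : ℕ → ℕ → ℝ} {t B q a p : ℕ} (hp : p.Prime) (h : p ∣ omt g d t B q a) :
    p ∈ a.primeFactors ∧ Omt g d t B q p := by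
  classical
  unfold omt at h
  obtain ⟨p', hp', hd⟩ := (Prime.dvd_finset_prod_iff hp.prime _).1 h
  obtain ⟨h1, h2⟩ := mem_filter.1 hp'
  have h3 := hp.dvd_of_dvd_pow hd
  have h4 : p = p' := (Nat.prime_dvd_prime_iff_eq hp (Nat.prime_of_mem_primeFactors h1)).1 h3
  subst h4
  exact ⟨h1, h2⟩

/-- the primes of the omitted parts are at most `z_i` -/
theorem omt_le_z (hJ : JsOK g.K g.Js) (hX : g.Js ≤ g.X) (hV : g.V ⊆ Icc 1 (N g)) {i q r : ℕ}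
    (hq : q ∈ g.V) (hr : r ∈ g.V) (hc : Clean g (z g i) q r) {d : ℕ → ℕ → ℝ} {t B p : ℕ}
    (hp : p.Prime) :
    (p ∣ omt g d t B q (rcof (z g i) (N g) (kc g q) q r) → p ≤ z g i) ∧
      (p ∣ omt g d t B r (rcof (z g i) (N g) (kc g q) r q) → p ≤ z g i) := by
  have hz : zs g ≤ z g i := zs_le_z hJ hX i
  have hq1 := (mem_Icc.1 (hV hq)).1
  have hr1 := (mem_Icc.1 (hV hr)).1
  obtain ⟨f1, f2⟩ := rcof_fac hV hz hq hr hc hp
  constructor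
  · intro h
    obtain ⟨h1, -, -, h2, -⟩ := dvd_omt' hp h
    have h3 := ((mem_Pm g hq1).1 h2).2.2.1
    by_contra hcon
    rw [if_neg hcon, h3, Nat.sub_self] at f1
    have h4 := Nat.mem_primeFactors.1 h1
    have h5 := (hp.dvd_iff_one_le_factorization h4.2.2).1 h4.2.1
    omega
  · intro h
    obtain ⟨h1, -, -, h2, -⟩ := dvd_omt' hp h
    have h3 := ((mem_Pm g hr1).1 h2).2.2.1
    by_contra hcon
    have h6 := kc_congr (clean_cross hV hz hq hr hc).1 (not_le.1 hcon)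
    rw [if_neg hcon, h3, h6, Nat.sub_self] at f2
    have h4 := Nat.mem_primeFactors.1 h1
    have h5 := (hp.dvd_iff_one_le_factorization h4.2.2).1 h4.2.1
    omega

theorem omt_coprime_left {d : ℕ → ℕ → ℝ} {t B q a m : ℕ} (hm : m ∣ B) :
    Nat.Coprime (omt g d t B q a) m := by
  refine Nat.Coprime.symm (Nat.coprime_of_dvd fun p hp h1 h2 => ?_)
  exact (dvd_omt' hp h2).2.2.1 (h1.trans hm)

/-- the data of a rest-rigid start of alignment -/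
theorem TArN.ral (hJ : JsOK g.K g.Js) (hX : g.Js ≤ g.X) (hV : g.V ⊆ Icc 1 (N g))
    {d : ℕ → ℕ → ℝ} {i q r s : ℕ} {n : ℤ} {F G : ℚ} (hq : q ∈ g.V) (hr : r ∈ g.V)
    (hn : n ∈ Sh g q r) (h : TArN g d i q r n F G s) :
    RAl g i q r n F G
      (omt g d (tR g i s q r F G) (BB g i q r F G) q (rcof (z g i) (N g) (kc g q) q r))
      (uR g d i s q r F G)
      (omt g d (tR g i s q r F G) (BB g i q r F G) r (rcof (z g i) (N g) (kc g q) r q))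
      (vR g d i s q r F G) := by
  obtain ⟨hT, -, -, -, h1, -, h2, h3, -⟩ := h
  obtain ⟨⟨F', b, G', b', k1, k2, k3⟩, -, hc, -⟩ := hT
  obtain ⟨-, -, -, a1, a2⟩ := clean_cofac hV (zs_le_z hJ hX i) hq hr hc
  obtain ⟨c1, hc1⟩ := h2 i le_rfl h1
  obtain ⟨c2, hc2⟩ := h3 i le_rfl h1
  rw [k1, Option.some.injEq, Prod.mk.injEq] at hc1
  rw [k2, Option.some.injEq, Prod.mk.injEq] at hc2
  obtain ⟨rfl, -⟩ := hc1
  obtain ⟨rfl, -⟩ := hc2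
  exact ⟨hc, (omt_mul_rst g d _ _ q a1.ne').symm, (omt_mul_rst g d _ _ r a2.ne').symm, hn, k3,
    omt_coprime_left (dvd_mul_left _ _), omt_coprime_left (dvd_mul_right _ _)⟩

/-- **Lemma (H) for the class C1.** -/
theorem C1_lemH (hJ : JsOK g.K g.Js) (hX : g.Js ≤ g.X) (hV : g.V ⊆ Icc 1 (N g))
    (hc0 : g.K.P.c0 ≤ 1 / 48) (hρ0 : (2 : ℝ) ^ 30 ≤ g.K.P.ρ0 ^ (-g.K.P.c0))
    {d : ℕ → ℕ → ℝ} {i i₂ q r r₂ s s₂ : ℕ} {n n₂ : ℤ} {F F₂ G G₂ : ℚ} (hii : i < i₂)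
    (hi₂ : i₂ ≤ nst g) (hq : q ∈ g.V) (hr : r ∈ g.V) (hr₂ : r₂ ∈ g.V) (hn : n ∈ Sh g q r)
    (hn₂ : n₂ ∈ Sh g q r₂) (h : TArN g d i q r n F G s) (h₂ : TArN g d i₂ q r₂ n₂ F₂ G₂ s₂)
    (hA : omt g d (tR g i s q r F G) (BB g i q r F G) q (rcof (z g i) (N g) (kc g q) q r) =
      omt g d (tR g i₂ s₂ q r₂ F₂ G₂) (BB g i₂ q r₂ F₂ G₂) q
        (rcof (z g i₂) (N g) (kc g q) q r₂))
    (hB : omt g d (tR g i s q r F G) (BB g i q r F G) r (rcof (z g i) (N g) (kc g q) r q) =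
      omt g d (tR g i₂ s₂ q r₂ F₂ G₂) (BB g i₂ q r₂ F₂ G₂) r₂
        (rcof (z g i₂) (N g) (kc g q) r₂ q))
    (hno : ∀ t, i < t → t ≤ i₂ → ¬ Nwf g t q) (hD : ¬ Drp g i₂ q)
    (hI : ∀ p, p.Prime → p ∣ uR g d i s q r F G * vR g d i s q r F G →
      p ≤ z g (nxs g i r)) :
    i₂ < nxs g i r := by
  have R1 := h.ral hJ hX hV hq hr hn
  have R2 := h₂.ral hJ hX hV hq hr₂ hn₂
  have hc₂ : Clean g (z g i₂) q r₂ := R2.cl
  rw [← hA, ← hB] at R2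
  obtain ⟨c, hc⟩ := h.2.2.2.2.2.2.1 i le_rfl h.2.2.2.2.1
  obtain ⟨c', hc'⟩ := h.2.2.2.2.2.2.2.1 i le_rfl h.2.2.2.2.1
  obtain ⟨c₂, hc2⟩ := h₂.2.2.2.2.2.2.1 i₂ le_rfl h₂.2.2.2.2.1
  obtain ⟨c₂', hc2'⟩ := h₂.2.2.2.2.2.2.2.1 i₂ le_rfl h₂.2.2.2.2.1
  obtain ⟨c₃, hc3⟩ := fr_const hii.le hno hc
  have hFF : F₂ = F := by
    rw [hc3, Option.some.injEq, Prod.mk.injEq] at hc2
    exact hc2.1.symm
  subst hFF
  obtain ⟨-, -, -, -, -, -, -, -, -, -, b1, b2⟩ := h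
  obtain ⟨-, -, -, hnew, -, -, -, -, -, -, b3, b4⟩ := h₂
  by_contra hcon
  push Not at hcon
  have hch : Chg g (nxs g i r) r := Nwf.chg (Nwf_nxs (hcon.trans hi₂))
  have hlt : i < nxs g i r := lt_nxs (by omega)
  have hAB : ∀ p : ℕ, p.Prime → p ∣
      omt g d (tR g i s q r F₂ G) (BB g i q r F₂ G) q (rcof (z g i) (N g) (kc g q) q r) *
      omt g d (tR g i s q r F₂ G) (BB g i q r F₂ G) r (rcof (z g i) (N g) (kc g q) r q) →
      p ≤ z g i₂ := by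
    intro p hp hd
    rcases (Nat.Prime.dvd_mul hp).1 hd with h1 | h1
    · rw [hA] at h1
      exact (omt_le_z hJ hX hV hq hr₂ hc₂ hp).1 h1
    · rw [hB] at h1
      exact (omt_le_z hJ hX hV hq hr₂ hc₂ hp).2 h1
  have hrest : ∀ t, i < t → t ≤ i₂ → Chg g t r → (∀ s, i < s → s < t → ¬ Chg g s r) →
      ∀ p : ℕ, p.Prime → p ∣ uR g d i s q r F₂ G * vR g d i s q r F₂ G →
        p ≤ z g t ∨ z g i < p := by
    intro t ht1 ht2 _ ht4 p hp hd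
    left
    have h1 : t ≤ nxs g i r := by
      by_contra h2
      exact ht4 _ hlt (not_le.1 h2) hch
    exact (hI p hp hd).trans (z_anti g h1)
  rcases lemH_rest hJ hX hV hc0 hρ0 hii hq hr hr₂ hc hc' hc2' R1 R2 hnew hno b1.le b2.le b3.le
    b4.le hAB hrest with h1 | h1
  · exact h1 _ hlt hcon hch
  · exact hD h1

/-- the numerical conditions of `lemH_rest` -/
theorem ev_numH : Ev (fun K _ => K.P.c0 ≤ 1 / 48 ∧ (2 : ℝ) ^ 30 ≤ K.P.ρ0 ^ (-K.P.c0)) := by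
  refine ⟨1 / 48, by norm_num, fun c0 hc0 hc0' => ⟨1, one_pos, fun c4 _ _ =>
    ⟨((2 : ℝ) ^ 30) ^ (-(1 / c0)), by positivity, fun ρ0 hρ0 hρ0' =>
      ⟨1, fun C1 _ => ⟨1, fun C2 _ => ?_⟩⟩⟩⟩⟩
  by_cases hg : GoodC c0 c4 ρ0 C1 C2
  swap
  · exact ⟨0, fun Js _ h' => absurd h' hg⟩
  refine ⟨0, fun Js _ _ => ⟨hc0', ?_⟩⟩
  change (2 : ℝ) ^ 30 ≤ ρ0 ^ (-c0)
  calc (2 : ℝ) ^ 30 = (((2 : ℝ) ^ 30) ^ (-(1 / c0))) ^ (-c0) := by
        rw [← Real.rpow_mul (by positivity)]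
        have : -(1 / c0) * -c0 = 1 := by field_simp
        rw [this, Real.rpow_one]
    _ ≤ ρ0 ^ (-c0) := Real.rpow_le_rpow_of_nonpos hρ0 hρ0' (by linarith)

end Vale.P028.SK
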